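import Vale.Agent.P269.G1.ZSpec

/-!
# [ZD1] the symmetry of the coefficients of the second order part
-/

namespace Vale.Agent.P269.G1.H440

open Vale.Agent.P269.CI

variable {X : CompleteIntersection}

/-- the reflection formula -/
theorem esym_refl (K i : ℕ) (x : ℂ) (hi : i ≤ K) :
    esym K i (-x - ((K : ℂ) - 1)) = (-1) ^ (K - i) * esym K i x := by
  have h1 : (∏ j ∈ Finset.range K,
      (Polynomial.X + Polynomial.C (-x - ((K : ℂ) - 1) + (j : ℂ)))) =
      Polynomial.C ((-1 : ℂ) ^ K) * (∏ j ∈ Finset.range K,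
        (Polynomial.X + Polynomial.C (x + (j : ℂ)))).comp (Polynomial.C (-1) * Polynomial.X) := by
    rw [← Finset.prod_range_reflect, Polynomial.prod_comp]
    have h2 : Polynomial.C ((-1 : ℂ) ^ K) = ∏ _j ∈ Finset.range K, Polynomial.C (-1 : ℂ) := by
      rw [Finset.prod_const, Finset.card_range, map_pow]
    rw [h2, ← Finset.prod_mul_distrib]
    refine Finset.prod_congr rfl fun j hj => ?_
    have hj' := Finset.mem_range.1 hj
    rw [Polynomial.add_comp, Polynomial.X_comp, Polynomial.C_comp, mul_add, ← mul_assoc,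
      ← Polynomial.C_mul, ← Polynomial.C_mul]
    have h3 : ((K - 1 - j : ℕ) : ℂ) = (K : ℂ) - 1 - j := by
      rw [Nat.cast_sub (by omega), Nat.cast_sub (by omega)]
      simp
    rw [h3]
    simp only [mul_neg, mul_one, neg_neg, Polynomial.C_1, one_mul, neg_mul]
    congr 2
    ring
  unfold esym
  rw [h1, Polynomial.coeff_C_mul, Polynomial.comp_C_mul_X_coeff]
  obtain ⟨k, rfl⟩ := Nat.exists_eq_add_of_le hi
  rw [Nat.add_sub_cancel_left, pow_add]
  have h4 : ((-1 : ℂ) ^ i) * (-1) ^ i = 1 := by
    rw [← mul_pow]; simp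
  linear_combination ((-1 : ℂ) ^ k *
    (∏ j ∈ Finset.range (i + k), (Polynomial.X + Polynomial.C (x + (j : ℂ)))).coeff i) * h4

/-- the entries of the powers of `c_1` -/
theorem c1pow_inl (i : ℕ) (a : Fin (X.dim + 1)) (c : Ix X) : c1pow X i (Sum.inl a) c =
    match c with
    | Sum.inl c => if (c : ℕ) = a + i then (index X : ℂ) ^ i else 0
    | Sum.inr _ => 0 := by
  induction i generalizing c with
  | zero =>
    unfold c1pow
    rw [pow_zero, Matrix.one_apply]
    cases c with
    | inl c =>
      by_cases h : c = a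
      · subst h; simp
      · have h' : ¬ (Sum.inl a : Ix X) = Sum.inl c := fun e => h (Sum.inl.inj e).symm
        have h'' : ¬ ((c : ℕ) = a + 0) := fun e => h (Fin.ext e)
        rw [if_neg h']
        simp only [if_neg h'']
    | inr c =>
      have h' : ¬ (Sum.inl a : Ix X) = Sum.inr c := fun e => by cases e
      rw [if_neg h']
  | succ i ih =>
    have h1 : c1pow X (i + 1) (Sum.inl a) c = ∑ b, c1pow X i (Sum.inl a) b * c1 X b c := by
      unfold c1pow
      rw [pow_succ, Matrix.mul_apply]
      rfl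
    rw [h1, Fintype.sum_sum_type]
    have h2 : ∑ b : X.Prim, c1pow X i (Sum.inl a) (Sum.inr b) * c1 X (Sum.inr b) c = 0 := by
      refine Finset.sum_eq_zero fun b _ => ?_
      rw [ih (Sum.inr b)]
      simp
    rw [h2, add_zero]
    cases c with
    | inr c =>
      refine Finset.sum_eq_zero fun b _ => ?_
      have : c1 X (Sum.inl b) (Sum.inr c) = 0 := by simp [c1, hmul]
      rw [this, mul_zero]
    | inl c =>
      have h3 : ∀ b : Fin (X.dim + 1), c1pow X i (Sum.inl a) (Sum.inl b) *
          c1 X (Sum.inl b) (Sum.inl c) = if (c : ℕ) = b + 1 then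
            (if (b : ℕ) = a + i then (index X : ℂ) ^ i else 0) * index X else 0 := by
        intro b
        rw [ih (Sum.inl b)]
        simp only [c1, hmul]
        split_ifs <;> simp
      simp only [h3]
      by_cases hc : (c : ℕ) = a + (i + 1)
      · rw [Finset.sum_eq_single (⟨a + i, by omega⟩ : Fin (X.dim + 1))]
        · simp only [if_true]
          rw [if_pos (by omega), if_pos hc, pow_succ]
        · intro b _ hb
          by_cases h4 : (c : ℕ) = b + 1
          · exfalso
            apply hb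
            apply Fin.ext
            change (b : ℕ) = a + i
            omega
          · rw [if_neg h4]
        · simp
      · refine (Finset.sum_eq_zero fun b _ => ?_).trans ?_
        · by_cases h4 : (c : ℕ) = b + 1
          · rw [if_pos h4, if_neg (by omega), zero_mul]
          · rw [if_neg h4]
        · simp only [if_neg hc]

theorem sum_qco (K m i : ℕ) (b c : Fin (X.dim + 1)) :
    ∑ a : Fin (X.dim + 1), qco X K m i (Sum.inl a) (Sum.inl b) (Sum.inl c) =
      if (b : ℕ) + c = X.dim + i then
        (-1) ^ (m + 1) * esym K i ((X.dim : ℂ) / 2 - b - m - 1 / 2) * (deg X)⁻¹ *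
          (index X : ℂ) ^ i else 0 := by
  have hb := b.isLt
  have hc := c.isLt
  have hcast : (((X.dim - b : ℕ)) : ℂ) = (X.dim : ℂ) - b := by
    rw [Nat.cast_sub (by omega)]
  rw [Finset.sum_eq_single (⟨X.dim - b, by omega⟩ : Fin (X.dim + 1))]
  · unfold qco
    rw [c1pow_inl]
    simp only [pairingInv, mu, hp]
    rw [if_pos (by omega : X.dim - (b : ℕ) + b = X.dim), hcast]
    by_cases h : (b : ℕ) + c = X.dim + i
    · rw [if_pos h, if_pos (by omega)]
      congr 4
      ring
    · rw [if_neg h, if_neg (by omega), mul_zero]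
  · intro a _ ha
    unfold qco
    have : ¬ ((a : ℕ) + b = X.dim) := by
      intro h
      apply ha
      apply Fin.ext
      change (a : ℕ) = X.dim - b
      omega
    simp only [pairingInv]
    rw [if_neg this]
    ring
  · simp

/-- **[ZD1]** the symmetry of the coefficients under the exchange of the two insertions -/
theorem qco_symm (K m i : ℕ) (h : m + i + 2 ≤ K) (b c : Fin (X.dim + 1)) :
    ∑ a : Fin (X.dim + 1), qco X K m i (Sum.inl a) (Sum.inl b) (Sum.inl c) =
      ∑ a : Fin (X.dim + 1), qco X K (K - 2 - m - i) i (Sum.inl a) (Sum.inl c) (Sum.inl b) := by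
  rw [sum_qco, sum_qco, add_comm (c : ℕ) (b : ℕ)]
  by_cases hbc : (b : ℕ) + c = X.dim + i
  · rw [if_pos hbc, if_pos hbc]
    obtain ⟨k, rfl⟩ : ∃ k, K = m + i + 2 + k := Nat.exists_eq_add_of_le h
    have e1 : m + i + 2 + k - 2 - m - i = k := by omega
    rw [e1]
    have e2 := esym_refl (m + i + 2 + k) i ((X.dim : ℂ) / 2 - b - m - 1 / 2) (by omega)
    have e3 : -((X.dim : ℂ) / 2 - b - m - 1 / 2) - (((m + i + 2 + k : ℕ) : ℂ) - 1) =
        (X.dim : ℂ) / 2 - c - k - 1 / 2 := by
      have h5 : ((b : ℕ) : ℂ) + ((c : ℕ) : ℂ) = (X.dim : ℂ) + i := by exact_mod_cast hbc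
      push_cast
      linear_combination h5
    rw [e3] at e2
    rw [e2]
    have e4 : m + i + 2 + k - i = m + 2 + k := by omega
    rw [e4]
    have e5 : ((-1 : ℂ)) ^ (k + 1) * (-1) ^ (m + 2 + k) = (-1) ^ (m + 1) := by
      rw [← pow_add]
      have : k + 1 + (m + 2 + k) = (m + 1) + 2 * (k + 1) := by ring
      rw [this, pow_add, pow_mul]
      simp
    rw [← mul_assoc ((-1 : ℂ) ^ (k + 1)), e5]
  · rw [if_neg hbc, if_neg hbc]

end Vale.Agent.P269.G1.H440
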