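import Vale.Agent.P269.G1.ZSpec
import Vale.Agent.P269.G1.H598.Cor
import Vale.Agent.P269.G1.H410.LamcMul
import Vale.Agent.P269.G1.H819.C5a

/-!
# [ZC] topological recursion in genus one; the string equation
-/

namespace Vale.Agent.P269.G1.H440

open Finset.HasAntidiagonal (antidiagonal)
open Vale.Agent.P269.CI

variable {X : CompleteIntersection} {F : ℕ → ℕ → List (Ins X) → ℂ}

variable (hF : IsGW X F) (h1 : IsGenusOne F)

include hF in
/-- the string equation: one-point functions in genus zero -/
theorem cor_string (b : Fin (X.dim + 1)) (m : ℕ) :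
    ser (cor F 0 [(Sum.inl b, m)]) = W F (Sum.inl b, m + 1) (Sum.inl 0, 0) := by
  unfold W
  have e1 := H598.cor_swap hF 0 [] [] (Sum.inl b, m + 1) (Sum.inl 0, 0) (Or.inl rfl)
  simp only [List.nil_append] at e1
  rw [e1]
  refine H598.ser_congr fun d L => ?_
  have h2 := hF.string 0 d ((Sum.inl b, m + 1) :: L.map (hpow X))
  change F 0 d ((Sum.inl b, m) :: L.map (hpow X)) =
    F 0 d ((one X, 0) :: (Sum.inl b, m + 1) :: L.map (hpow X))
  rw [h2]
  have h3 : (if (0 : ℕ) = 0 ∧ d = 0 then
      pairTerm X (pairing X) ((Sum.inl b, m + 1) :: L.map (hpow X)) else 0) = 0 := by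
    have : pairTerm X (pairing X) ((Sum.inl b, m + 1) :: L.map (hpow X)) = 0 := by
      cases L with
      | nil => rfl
      | cons a L =>
        cases L with
        | nil => rfl
        | cons c L => rfl
    rw [this, ite_self]
  rw [h3, add_zero]
  unfold lowerSum
  have hz : 0 < ((Sum.inl b, m + 1) :: L.map (hpow X) : List (Ins X)).length := by simp
  rw [Finset.sum_eq_single (⟨0, hz⟩ : Fin _)]
  · change _ = if m + 1 = 0 then (0 : ℂ) else ∑ c, (if (Sum.inl b : Ix X) = c then (1 : ℂ) else 0) *
      F 0 d ((c, m + 1 - 1) :: L.map (hpow X))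
    rw [if_neg (Nat.succ_ne_zero m), Finset.sum_eq_single (Sum.inl b : Ix X)]
    · simp
    · intro c _ hc
      rw [if_neg (Ne.symm hc), zero_mul]
    · simp
  · intro j _ hj
    rw [if_pos]
    obtain ⟨j, hjl⟩ := j
    cases j with
    | zero => exact absurd rfl hj
    | succ j =>
      simp [hpow]
  · simp

/-- the variables as series of coefficient functions -/
theorem ser_X (j : Fin (X.dim + 1)) :
    ser (X := X) (fun d L => if d = 0 ∧ L = [hpow X j] then 1 else 0) = MvPowerSeries.X j := by
  classical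
  ext α m
  change (PowerSeries.coeff m) ((((∏ i, (α i).factorial : ℕ) : ℚ)⁻¹ •
    (PowerSeries.mk fun d => if d = 0 ∧ (lst α).map (hpow X) = [hpow X j] then (1 : ℂ) else 0) :
      PowerSeries ℂ)) = _
  rw [MvPowerSeries.coeff_X]
  have hinj : ∀ M : List (Fin (X.dim + 1)), M.map (hpow X) = [hpow X j] ↔ M = [j] := by
    intro M
    constructor
    · intro h
      cases M with
      | nil => simp at h
      | cons a M =>
        cases M with
        | nil =>
          have : hpow X a = hpow X j := by simpa using h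
          have h2 : (Sum.inl a : Ix X) = Sum.inl j := congrArg Prod.fst this
          rw [Sum.inl.inj h2]
        | cons c M => simp at h
    · rintro rfl; rfl
  by_cases hα : α = Finsupp.single j 1
  · subst hα
    have hl : lst (Finsupp.single j 1 : Fin (X.dim + 1) →₀ ℕ) = [j] := by
      have := H598.lst_add (0 : Fin (X.dim + 1) →₀ ℕ) j
      rw [zero_add, H598.lst_zero] at this
      exact List.perm_singleton.1 this
    rw [if_pos rfl, hl]
    have hf : (∏ i, (Finsupp.single j 1 i).factorial : ℕ) = 1 := by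
      refine Finset.prod_eq_one fun i _ => ?_
      rw [Finsupp.single_apply]
      split_ifs <;> simp
    rw [hf]
    simp [PowerSeries.coeff_one]
  · rw [if_neg hα]
    have : ¬ (lst α).map (hpow X) = [hpow X j] := by
      rw [hinj]
      intro h
      apply hα
      ext i
      have h3 := H598.count_lst α i
      rw [h] at h3
      rw [← h3, Finsupp.single_apply]
      by_cases hij : j = i
      · subst hij; simp
      · rw [if_neg hij, List.count_eq_zero]
        simp only [List.mem_singleton]
        exact fun e => hij e.symm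
    simp [this]

theorem mkEnd_apply (M : Fin (X.dim + 1) → Fin (X.dim + 1) → RR X) (x : AA hF h1)
    (k : Fin (X.dim + 1)) : (mkEnd hF h1 M x : AA hF h1) k = ∑ i, x i * M i k := rfl

theorem mkEnd_bas (M : Fin (X.dim + 1) → Fin (X.dim + 1) → RR X) (i k : Fin (X.dim + 1)) :
    (mkEnd hF h1 M (QA.bas (consts hF h1) i) : AA hF h1) k = M i k := by
  rw [mkEnd_apply, Finset.sum_eq_single i]
  · rw [QA.bas_apply, if_pos rfl, one_mul]
  · intro j _ hj
    rw [QA.bas_apply, if_neg hj, zero_mul]
  · simp

theorem bas_zero : (QA.bas (consts hF h1) 0 : AA hF h1) = 1 := by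
  funext k
  rw [QA.bas_apply]
  rfl

include hF in
/-- two-point functions with a unit -/
theorem W_unit (b : Fin (X.dim + 1)) : W F (Sum.inl b, 0) (Sum.inl 0, 0) =
    ∑ j : Fin (X.dim + 1), pairing X (Sum.inl b) (Sum.inl j) • MvPowerSeries.X j := by
  have e0 : ∀ j : Fin (X.dim + 1), pairing X (Sum.inl b) (Sum.inl j) •
      (MvPowerSeries.X j : RR X) = ser (X := X) (fun d L => pairing X (Sum.inl b) (Sum.inl j) *
        (if d = 0 ∧ L = [hpow X j] then 1 else 0)) := by
    intro j
    rw [H598.ser_smul, ser_X]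
  simp only [e0]
  rw [← H598.ser_sum]
  unfold W
  have e1 := H598.cor_swap hF 0 [] [] (Sum.inl b, 0) (Sum.inl 0, 0) (Or.inl rfl)
  simp only [List.nil_append] at e1
  rw [e1]
  refine H598.ser_congr fun d L => ?_
  have h2 := hF.string 0 d ((Sum.inl b, 0) :: L.map (hpow X))
  change F 0 d ((one X, 0) :: (Sum.inl b, 0) :: L.map (hpow X)) = _
  rw [h2, H598.lowerSum_zero, zero_add]
  · cases L with
    | nil =>
      simp [pairTerm]
    | cons a L =>
      cases L with
      | nil =>
        by_cases hd : d = 0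
        · have h3 : ∀ j : Fin (X.dim + 1), (([a] : List (Fin (X.dim + 1))).map (hpow X) =
              [hpow X j]) ↔ a = j := by
            intro j
            constructor
            · intro h
              have : hpow X a = hpow X j := by simpa using h
              exact Sum.inl.inj (congrArg Prod.fst this)
            · rintro rfl; rfl
          simp only [hd, h3]
          simp [pairTerm, hpow]
        · simp [hd]
      | cons c L =>
        simp [pairTerm]
  · intro x hx
    rcases List.mem_cons.1 hx with h | h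
    · rw [h]
    · obtain ⟨i, _, rfl⟩ := List.mem_map.1 h
      rfl

/-- **[ZE3]** string equation -/
theorem ST_one_one (k : Fin (X.dim + 1)) :
    ((ST hF h1 1).1 1 : AA hF h1) k = MvPowerSeries.X k := by
  have h2 : ((ST hF h1 1).1 1 : AA hF h1) k = ∑ b : Fin (X.dim + 1),
      pairingInv X (Sum.inl b) (Sum.inl k) • W F (Sum.inl b, 0) (Sum.inl 0, 0) := by
    rw [← bas_zero hF h1]
    exact mkEnd_bas hF h1 _ 0 k
  rw [h2]
  simp only [W_unit hF, Finset.smul_sum, smul_smul]
  rw [Finset.sum_comm]
  simp only [← Finset.sum_smul]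
  have h3 : ∀ j : Fin (X.dim + 1), ∑ b : Fin (X.dim + 1), pairingInv X (Sum.inl b) (Sum.inl k) *
      pairing X (Sum.inl b) (Sum.inl j) = if j = k then 1 else 0 := by
    intro j
    rw [← H598.pairing_inv_amb j k]
    refine Finset.sum_congr rfl fun l _ => ?_
    have : pairing X (Sum.inl l) (Sum.inl j) = pairing X (Sum.inl j) (Sum.inl l) := by
      simp only [pairing]
      rw [add_comm]
    rw [this]
  simp only [h3]
  rw [Finset.sum_eq_single k]
  · rw [if_pos rfl, one_smul]
  · intro j _ hj
    rw [if_neg hj, zero_smul]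
  · simp

theorem SZ_nat (n : ℕ) : SZ hF h1 (n : ℤ) = SS hF h1 n := by
  unfold SZ
  rw [if_neg (by omega), Int.toNat_natCast]

theorem SS_succ_bas (m : ℕ) (b k : Fin (X.dim + 1)) :
    ((SS hF h1 (m + 1)).1 (QA.bas _ b) : AA hF h1) k = ∑ c : Fin (X.dim + 1),
      pairingInv X (Sum.inl c) (Sum.inl k) • W F (Sum.inl b, m) (Sum.inl c, 0) :=
  mkEnd_bas hF h1 _ b k

/-- three-point functions with one descendant -/
theorem cor_three_pt (b : Fin (X.dim + 1)) (m : ℕ) (u v : Ins X) :
    ser (cor F 0 [(Sum.inl b, m), u, v]) = ∑ i : Fin (X.dim + 1),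
      ((SS hF h1 m).1 (QA.bas _ b) : AA hF h1) i * ser (cor F 0 [hpow X i, u, v]) := by
  cases m with
  | zero =>
    have h2 : ((SS hF h1 0).1 (QA.bas _ b) : AA hF h1) = QA.bas _ b := rfl
    rw [h2, Finset.sum_eq_single b]
    · rw [QA.bas_apply, if_pos rfl, one_mul]
      rfl
    · intro j _ hj
      rw [QA.bas_apply, if_neg hj, zero_mul]
    · simp
  | succ m =>
    rw [H598.trr_ser hF (Sum.inl b) m u v, Fintype.sum_sum_type]
    have h2 : ∑ w : X.Prim, ∑ β, pairingInv X (Sum.inr w) β •
        (ser (cor F 0 [(β, 0), u, v]) * ser (cor F 0 [(Sum.inl b, m), (Sum.inr w, 0)])) = 0 := by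
      refine Finset.sum_eq_zero fun w _ => Finset.sum_eq_zero fun β _ => ?_
      have e1 := H598.cor_swap hF 0 [] [] (Sum.inl b, m) (Sum.inr w, 0) (Or.inl rfl)
      simp only [List.nil_append] at e1
      rw [e1, H598.cor_prim h1 0 w 0 [(Sum.inl b, m)] (by simp [IsAmb]), mul_zero, smul_zero]
    rw [h2, add_zero]
    have h3 : ∀ c : Fin (X.dim + 1), ∑ β, pairingInv X (Sum.inl c) β •
        (ser (cor F 0 [(β, 0), u, v]) * ser (cor F 0 [(Sum.inl b, m), (Sum.inl c, 0)])) =
        ∑ i : Fin (X.dim + 1), (pairingInv X (Sum.inl c) (Sum.inl i) •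
          W F (Sum.inl b, m) (Sum.inl c, 0)) * ser (cor F 0 [hpow X i, u, v]) := by
      intro c
      rw [Fintype.sum_sum_type]
      have h4 : ∑ w : X.Prim, pairingInv X (Sum.inl c) (Sum.inr w) •
        (ser (cor F 0 [(Sum.inr w, 0), u, v]) *
          ser (cor F 0 [(Sum.inl b, m), (Sum.inl c, 0)])) = 0 := by
        refine Finset.sum_eq_zero fun w _ => ?_
        have : pairingInv X (Sum.inl c) (Sum.inr w) = 0 := rfl
        rw [this, zero_smul]
      rw [h4, add_zero]
      refine Finset.sum_congr rfl fun i _ => ?_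
      rw [smul_mul_assoc, mul_comm (W F (Sum.inl b, m) (Sum.inl c, 0))]
      rfl
    rw [Finset.sum_congr rfl fun c _ => h3 c, Finset.sum_comm]
    refine Finset.sum_congr rfl fun i _ => ?_
    rw [SS_succ_bas, Finset.sum_mul]

theorem sum_form : ∑ v : X.Prim, ∑ w : X.Prim,
    pairingInv X (Sum.inr v) (Sum.inr w) * X.form v w =
      (-1) ^ X.dim * (Fintype.card X.Prim : ℂ) := by
  have h5 : ∀ v, ∑ w, (Matrix.of X.form)⁻¹ v w * X.form w v = 1 := by
    intro v
    have := congrFun (congrFun (H410.form_inv_mul X) v) v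
    rw [Matrix.mul_apply, Matrix.one_apply, if_pos rfl] at this
    exact this
  have h6 : ∀ v : X.Prim, ∑ w : X.Prim, pairingInv X (Sum.inr v) (Sum.inr w) * X.form v w =
      (-1) ^ X.dim := by
    intro v
    have h7 : ∀ w, pairingInv X (Sum.inr v) (Sum.inr w) * X.form v w =
        (-1) ^ X.dim * ((Matrix.of X.form)⁻¹ v w * X.form w v) := by
      intro w
      rw [X.form_symm v w]
      change (Matrix.of X.form)⁻¹ v w * _ = _
      ring
    rw [Finset.sum_congr rfl fun w _ => h7 w, ← Finset.mul_sum, h5, mul_one]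
  rw [Finset.sum_congr rfl fun v _ => h6 v, Finset.sum_const, Finset.card_univ, nsmul_eq_mul,
    mul_comm]

/-- the supertrace of quantum multiplication -/
theorem strO_CC (x : AA hF h1) : strO hF h1 (CC hF h1 x) =
    ∑ i, x i * ∑ α, ∑ β, pairingInv X α β • ser (cor F 0 [hpow X i, (α, 0), (β, 0)]) := by
  have hT : ∀ i : Fin (X.dim + 1), (∑ α, ∑ β, pairingInv X α β •
      ser (cor F 0 [hpow X i, (α, 0), (β, 0)])) =
      (∑ k : Fin (X.dim + 1), qc F i k k) +
        cst X ((-1) ^ X.dim) * ∑ _v : X.Prim, lamc h1 i := by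
    intro i
    rw [Fintype.sum_sum_type]
    congr 1
    · unfold qc
      have h4 : ∀ c : Fin (X.dim + 1), (∑ β, pairingInv X (Sum.inl c) β •
          ser (cor F 0 [hpow X i, (Sum.inl c, 0), (β, 0)])) =
          ∑ k : Fin (X.dim + 1), pairingInv X (Sum.inl c) (Sum.inl k) •
          ser (cor F 0 [hpow X i, (Sum.inl c, 0), (Sum.inl k, 0)]) := by
        intro c
        rw [Fintype.sum_sum_type]
        have h5 : ∑ w : X.Prim, pairingInv X (Sum.inl c) (Sum.inr w) •
          ser (cor F 0 [hpow X i, (Sum.inl c, 0), (Sum.inr w, 0)]) = 0 := by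
          refine Finset.sum_eq_zero fun w _ => ?_
          have : pairingInv X (Sum.inl c) (Sum.inr w) = 0 := rfl
          rw [this, zero_smul]
        rw [h5, add_zero]
      rw [Finset.sum_congr rfl fun c _ => h4 c, Finset.sum_comm]
      refine Finset.sum_congr rfl fun k _ => Finset.sum_congr rfl fun l _ => ?_
      congr 1
      exact H598.cor_swap hF 0 [hpow X i] [] (Sum.inl l, 0) (Sum.inl k, 0) (Or.inl rfl)
    · have h3 : ∀ v : X.Prim, (∑ β, pairingInv X (Sum.inr v) β •
          ser (cor F 0 [hpow X i, (Sum.inr v, 0), (β, 0)])) =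
          (∑ w : X.Prim, pairingInv X (Sum.inr v) (Sum.inr w) * X.form v w) • lamc h1 i := by
        intro v
        rw [Fintype.sum_sum_type]
        have h4 : ∑ c : Fin (X.dim + 1), pairingInv X (Sum.inr v) (Sum.inl c) •
            ser (cor F 0 [hpow X i, (Sum.inr v, 0), (Sum.inl c, 0)]) = 0 := by
          refine Finset.sum_eq_zero fun c _ => ?_
          have : pairingInv X (Sum.inr v) (Sum.inl c) = 0 := rfl
          rw [this, zero_smul]
        rw [h4, zero_add, Finset.sum_smul]
        refine Finset.sum_congr rfl fun w _ => ?_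
        rw [mul_smul]
        congr 1
        exact H410.cor_prim'' hF h1 v w i
      rw [Finset.sum_congr rfl fun v _ => h3 v, ← Finset.sum_smul, sum_form, Finset.sum_const,
        Finset.card_univ, H598.smul_RR, nsmul_eq_mul]
      have h5 : H598.kst X ((-1) ^ X.dim * (Fintype.card X.Prim : ℂ)) =
          cst X ((-1) ^ X.dim) * (Fintype.card X.Prim : RR X) := by
        unfold H598.kst cst
        rw [map_mul, map_mul, map_natCast, map_natCast]
      rw [h5, mul_assoc]
  simp only [hT]
  change LinearMap.trace (RR X) (AA hF h1) (Algebra.lmul (RR X) (AA hF h1) x) +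
    cst X ((-1) ^ X.dim) * ∑ _v : X.Prim, ∑ i, x i * lamc h1 i = _
  rw [H819.trace_eq]
  simp only [mul_add, Finset.sum_add_distrib]
  congr 1
  · simp only [Finset.mul_sum]
    rw [Finset.sum_comm]
    refine Finset.sum_congr rfl fun k _ => ?_
    change (x * QA.bas (consts hF h1) k : AA hF h1) k = _
    rw [QA.mul_def]
    refine Finset.sum_congr rfl fun i _ => ?_
    rw [Finset.sum_eq_single k]
    · rw [QA.bas_apply, if_pos rfl, mul_one]
      rfl
    · intro j _ hj
      rw [QA.bas_apply, if_neg hj, mul_zero, zero_mul]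
    · simp
  · simp only [Finset.mul_sum]
    rw [Finset.sum_comm]
    refine Finset.sum_congr rfl fun i _ => Finset.sum_congr rfl fun v _ => ?_
    ring

/-- **[ZC]** topological recursion in genus one -/
theorem cor_one (b : Fin (X.dim + 1)) (n : ℕ) :
    ser (cor F 1 [(Sum.inl b, n)]) = Gam hF h1 n (QA.bas _ b) := by
  unfold Gam
  cases n with
  | zero =>
    have h2 : SZ hF h1 (((0 : ℕ) : ℤ) - 1) = 0 := by
      unfold SZ
      rw [if_pos (by norm_num)]
    have h3 : ((SZ hF h1 ((0 : ℕ) : ℤ)).1 (QA.bas _ b) : AA hF h1) = QA.bas _ b := by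
      rw [SZ_nat]
      rfl
    rw [h2, h3]
    have h4 : ((0 : OO hF h1).1 (QA.bas _ b) : AA hF h1) = 0 := rfl
    rw [h4, map_zero, map_zero, smul_zero, add_zero]
    change _ = ∑ i, (QA.bas _ b : AA hF h1) i * ser (cor F 1 [hpow X i])
    rw [Finset.sum_eq_single b]
    · rw [QA.bas_apply, if_pos rfl, one_mul]
      rfl
    · intro j _ hj
      rw [QA.bas_apply, if_neg hj, zero_mul]
    · simp
  | succ m =>
    have e1 : (((m + 1 : ℕ) : ℤ) - 1) = (m : ℤ) := by push_cast; ring
    rw [e1, SZ_nat, SZ_nat]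
    have h2 : ser (cor F 1 [(Sum.inl b, m + 1)]) =
        (∑ α, ∑ β, pairingInv X α β • (ser (cor F 0 [(Sum.inl b, m), (α, 0)]) *
          ser (cor F 1 [(β, 0)]))) +
        (1 / 24 : ℂ) • ∑ α, ∑ β, pairingInv X α β •
          ser (cor F 0 [(Sum.inl b, m), (α, 0), (β, 0)]) := by
      have e2 : ∀ α β, pairingInv X α β • (ser (cor F 0 [(Sum.inl b, m), (α, 0)]) *
          ser (cor F 1 [(β, 0)])) = ser (fun d L => pairingInv X α β *
            mulS (cor F 0 [(Sum.inl b, m), (α, 0)]) (cor F 1 [(β, 0)]) d L) := by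
        intro α β
        rw [← H598.ser_mulS _ _ (H598.symS_cor hF 0 _) (H598.symS_cor hF 1 _), H598.ser_smul]
      have e3 : ∀ α β, pairingInv X α β • ser (cor F 0 [(Sum.inl b, m), (α, 0), (β, 0)]) =
          ser (fun d L => pairingInv X α β * cor F 0 [(Sum.inl b, m), (α, 0), (β, 0)] d L) := by
        intro α β
        rw [H598.ser_smul]
      simp only [e2, e3]
      simp only [← H598.ser_sum]
      rw [← H598.ser_smul, ← H598.ser_add]
      refine H598.ser_congr fun d L => ?_
      exact h1.trr1 d b m (L.map (hpow X)) (H410.isAmb_map L)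
    rw [h2]
    congr 1
    · have h3 : ∀ α, ∑ v : X.Prim, pairingInv X α (Sum.inr v) •
          (ser (cor F 0 [(Sum.inl b, m), (α, 0)]) * ser (cor F 1 [(Sum.inr v, 0)])) = 0 := by
        intro α
        refine Finset.sum_eq_zero fun v _ => ?_
        rw [H598.cor_prim h1 1 v 0 [] (by simp), mul_zero, smul_zero]
      have h4 : ∀ α, ∑ β, pairingInv X α β •
          (ser (cor F 0 [(Sum.inl b, m), (α, 0)]) * ser (cor F 1 [(β, 0)])) =
          ∑ k : Fin (X.dim + 1), pairingInv X α (Sum.inl k) •
          (ser (cor F 0 [(Sum.inl b, m), (α, 0)]) * ser (cor F 1 [hpow X k])) := by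
        intro α
        rw [Fintype.sum_sum_type, h3, add_zero]
        rfl
      simp only [h4]
      rw [Fintype.sum_sum_type]
      have h5 : ∑ v : X.Prim, ∑ k : Fin (X.dim + 1), pairingInv X (Sum.inr v) (Sum.inl k) •
          (ser (cor F 0 [(Sum.inl b, m), (Sum.inr v, 0)]) * ser (cor F 1 [hpow X k])) = 0 := by
        refine Finset.sum_eq_zero fun v _ => Finset.sum_eq_zero fun k _ => ?_
        have : pairingInv X (Sum.inr v) (Sum.inl k) = 0 := rfl
        rw [this, zero_smul]
      rw [h5, add_zero, Finset.sum_comm]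
      change _ = ∑ k, ((SS hF h1 (m + 1)).1 (QA.bas _ b) : AA hF h1) k *
        ser (cor F 1 [hpow X k])
      refine Finset.sum_congr rfl fun k _ => ?_
      rw [SS_succ_bas, Finset.sum_mul]
      refine Finset.sum_congr rfl fun c _ => ?_
      rw [smul_mul_assoc]
      rfl
    · congr 1
      rw [strO_CC]
      simp only [cor_three_pt hF h1 b m, Finset.smul_sum, Finset.mul_sum]
      have h6 : ∀ f : Ix X → Ix X → Fin (X.dim + 1) → RR X,
          ∑ α, ∑ β, ∑ i, f α β i = ∑ i, ∑ α, ∑ β, f α β i := by
        intro f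
        rw [Finset.sum_congr rfl fun α _ => Finset.sum_comm (f := fun β i => f α β i)]
        exact Finset.sum_comm
      rw [h6]
      refine Finset.sum_congr rfl fun i _ => Finset.sum_congr rfl fun α _ =>
        Finset.sum_congr rfl fun β _ => ?_
      rw [mul_smul_comm]

end Vale.Agent.P269.G1.H440
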